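import Vale.Agent.P366.Kerr.DefsL
import Vale.Agent.P366.H707.N.X6b

/-! Kerr-Schild spacetimes with a null geodesic covector field: the boundary of the slice and its
area. -/

open MeasureTheory Metric Filter Topology Set
open scoped ContDiff ENNReal

noncomputable section
namespace Vale.Agent.P366.KSL

open Vale.Agent.P366 (pd E)
open Vale.Agent.P366.H353.N
open Vale.Agent.P366.Kerr (NullCone Psi pt sp indG indK sgn ksL ein IsKS IsGraph IsSliceL tng)
open Vale.Agent.P366.KSN (Y dts sg posU' Psi_map_nhds eventually_P Y_eq norm_smul_unit U_smul homU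
  smU smH homH Psi_ray_deriv fderiv_Psi_inj Psi_contDiffAt dts_pos exists_unit Psi_eq sum_xx Y_apply
  fderiv_Psi_symm)
open Vale.Agent.P366.H707 (adjq)
open Vale.Agent.P366.H707.N (Par dW KM adj_alg det_alg)

variable {n : ℕ} {C : NullCone n} {l : Fin (n + 1) → E (n + 1) → ℝ} {V : E (n + 1) → ℝ}
  {f f₁ : E n → ℝ} {D : Stmt.Exterior n} {p : E (n + 1)} {x y z : E n} {s : ℝ}

/-! ### the induced metric -/

lemma sum_tng (v : Fin (n + 1) → ℝ) (f : E n → ℝ) (i : Fin n) (y : E n) :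
    ∑ a, v a * tng f i y a = v 0 * Stmt.pd i f y + v i.succ := by
  rw [Fin.sum_univ_succ]
  unfold tng
  simp only [Fin.cons_zero, Fin.cons_succ]
  have : ∑ k : Fin n, v k.succ * (Pi.single i (1 : ℝ) : Fin n → ℝ) k = v i.succ := by
    simp [Pi.single_apply]
  rw [this]

/-- the induced metric -/
theorem indG_ksL (l : Fin (n + 1) → E (n + 1) → ℝ) (V : E (n + 1) → ℝ) (f : E n → ℝ) (y : E n)
    (i j : Fin n) :
    indG (ksL l V) f y i j = kd i j - Stmt.pd i f y * Stmt.pd j f y +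
      V (pt (f y) y) * (l 0 (pt (f y) y) * Stmt.pd i f y + l i.succ (pt (f y) y)) *
        (l 0 (pt (f y) y) * Stmt.pd j f y + l j.succ (pt (f y) y)) := by
  unfold indG ksL
  have e1 : ∀ a b : Fin (n + 1), ((if a = b then sgn a else 0) +
      V (pt (f y) y) * l a (pt (f y) y) * l b (pt (f y) y)) * tng f i y a * tng f j y b =
      (if a = b then sgn a else 0) * tng f i y a * tng f j y b +
      V (pt (f y) y) * ((l a (pt (f y) y) * tng f i y a) * (l b (pt (f y) y) * tng f j y b)) :=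
    fun a b => by ring
  simp only [e1, Finset.sum_add_distrib, ← Finset.mul_sum, ← Finset.sum_mul]
  rw [sum_tng (fun a => l a (pt (f y) y)), sum_tng (fun a => l a (pt (f y) y))]
  have e2 : ∑ a, ∑ b, (if a = b then sgn a else 0) * tng f i y a * tng f j y b =
      kd i j - Stmt.pd i f y * Stmt.pd j f y := by
    have e3 : ∀ a : Fin (n + 1), ∑ b, (if a = b then sgn a else 0) * tng f i y a * tng f j y b =
        (sgn a * tng f i y a) * tng f j y a := by
      intro a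
      simp
    rw [Finset.sum_congr rfl fun a _ => e3 a, sum_tng (fun a => sgn a * tng f i y a) f j y]
    unfold tng sgn kd
    simp only [Fin.cons_zero, Fin.cons_succ, if_true, Fin.succ_ne_zero, if_false, Pi.single_apply,
      eq_comm (a := j)]
    ring
  rw [e2]
  ring

/-! ### the boundary -/

theorem mem_Y (dom : ∀ y, 0 ≤ D.F y ↔ ∃ x, x ≠ 0 ∧ C.U x ≤ ‖x‖ ∧ Psi C.H x = y) (hx : ‖x‖ = 1)
    (hs : C.U x ≤ s) : 0 ≤ D.F (Y C.H x s) := by
  have h0 : 0 < s := (posU' C hx).trans_le hs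
  have hx0 := ne_zero_of_one hx
  refine (dom _).2 ⟨s • x, smul_ne_zero h0.ne' hx0, ?_, Y_eq C hx h0⟩
  rw [U_smul C hx0 h0, norm_smul_unit hx h0.le]
  exact hs

theorem F_pos (dom : ∀ y, 0 ≤ D.F y ↔ ∃ x, x ≠ 0 ∧ C.U x ≤ ‖x‖ ∧ Psi C.H x = y) (hx : ‖x‖ = 1)
    (hs : C.U x < s) : 0 < D.F (Y C.H x s) := by
  have h0 : 0 < s := (posU' C hx).trans hs
  have hge : 0 ≤ D.F (Y C.H x s) := mem_Y dom hx hs.le
  rcases hge.lt_or_eq with h | h
  · exact h
  exfalso
  have hmin : IsLocalMin D.F (Y C.H x s) := by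
    have h1 : ∀ᶠ y in 𝓝 (Psi C.H (s • x)), 0 ≤ D.F y := by
      rw [← Psi_map_nhds C hx hs.le, eventually_map]
      filter_upwards [eventually_P C hx hs] with z hz
      exact (dom _).2 ⟨z, hz.1, hz.2.le, rfl⟩
    rw [Y_eq C hx h0] at h1
    filter_upwards [h1] with y hy
    rw [← h]
    exact hy
  obtain ⟨i, hi⟩ := D.dom.2.1 _ h.symm
  apply hi
  have hsm : DifferentiableAt ℝ D.F (Y C.H x s) := D.dom.1.differentiable (by simp) _
  rw [Vale.Agent.P366.Bridge.pd_eq hsm, Vale.Agent.P366.pd, hmin.fderiv_eq_zero]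
  rfl

/-- the value of a function with prescribed boundary values at a boundary point -/
theorem bd_Y {G : E n → ℝ} {β : E n → ℝ}
    (hG : ∀ z, z ≠ 0 → ‖z‖ = C.U z → G (Psi C.H z) = β z) (hx : ‖x‖ = 1) :
    G (Y C.H x (C.U x)) = β (C.U x • x) := by
  have h0 := posU' C hx
  have hx0 := ne_zero_of_one hx
  rw [← Y_eq C hx h0]
  refine hG _ (smul_ne_zero h0.ne' hx0) ?_
  rw [norm_smul_unit hx h0.le, U_smul C hx0 h0]

/-- Differentials at a boundary point of functions on the boundary. -/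
lemma bdr_curve2 (C : NullCone n) (hx : ‖x‖ = 1) (w : E n) : ∃ κ : ℝ, ∀ (G : E n → ℝ) (c : ℝ),
    DifferentiableAt ℝ G (Y C.H x (C.U x)) →
    (∀ z, z ≠ 0 → ‖z‖ = C.U z → G (Psi C.H z) = c * ‖z‖) →
    fderiv ℝ G (Y C.H x (C.U x)) (fderiv ℝ (Psi C.H) (C.U x • x) w) - c * ∑ i, x i * w i =
      κ * (fderiv ℝ G (Y C.H x (C.U x)) x - c) := by
  have h0 := posU' C hx
  have hx0 := ne_zero_of_one hx
  set u := C.U x with hu
  set z0 : E n := u • x with hz0d
  have hz0 : z0 ≠ 0 := smul_ne_zero h0.ne' hx0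
  have hn0 : ‖z0‖ = u := norm_smul_unit hx h0.le
  have hUz0 : C.U z0 = u := U_smul C hx0 h0
  -- the curve
  have hz : HasDerivAt (fun t : ℝ => z0 + t • w) w 0 := by
    simpa using ((hasDerivAt_id (0:ℝ)).smul_const w).const_add z0
  have ha : ∃ a' : ℝ, HasDerivAt (fun t : ℝ => C.U (z0 + t • w) / ‖z0 + t • w‖) a' 0 := by
    have hz0' : z0 + (0:ℝ) • w ≠ 0 := by simpa using hz0
    have hnd : DifferentiableAt ℝ (fun z : E n => ‖z‖) (z0 + (0:ℝ) • w) :=
      (Sm.norm _ hz0').differentiableAt (by simp)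
    have h1 : DifferentiableAt ℝ (fun z : E n => C.U z * (‖z‖)⁻¹) (z0 + (0:ℝ) • w) :=
      ((smU C).diff hz0').mul (hnd.inv (norm_ne_zero_iff.mpr hz0'))
    exact ⟨_, (h1.hasFDerivAt.comp_hasDerivAt 0 hz).congr_of_eventuallyEq
      (Eventually.of_forall fun t => div_eq_mul_inv _ _)⟩
  obtain ⟨a', ha'⟩ := ha
  refine ⟨-(a' * u), fun G c hG hG0 => ?_⟩
  have hσ : HasDerivAt (fun t : ℝ => (C.U (z0 + t • w) / ‖z0 + t • w‖) • (z0 + t • w))
      (w + a' • z0) 0 := by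
    have h := ha'.smul hz
    refine h.congr_deriv ?_
    simp only [zero_smul, add_zero, hUz0, hn0, div_self h0.ne', one_smul]
  have hσ0 : (C.U (z0 + (0:ℝ) • w) / ‖z0 + (0:ℝ) • w‖) • (z0 + (0:ℝ) • w) = z0 := by
    simp only [zero_smul, add_zero, hUz0, hn0, div_self h0.ne', one_smul]
  have hP : HasFDerivAt (Psi C.H) (fderiv ℝ (Psi C.H) z0)
      ((C.U (z0 + (0:ℝ) • w) / ‖z0 + (0:ℝ) • w‖) • (z0 + (0:ℝ) • w)) := by
    rw [hσ0]
    exact ((Psi_contDiffAt C hz0).differentiableAt (by simp)).hasFDerivAt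
  have hPσ := hP.comp_hasDerivAt (0:ℝ) hσ
  have hG' : HasFDerivAt G (fderiv ℝ G (Y C.H x u))
      ((Psi C.H ∘ fun t : ℝ => (C.U (z0 + t • w) / ‖z0 + t • w‖) • (z0 + t • w)) 0) := by
    simp only [Function.comp]
    rw [hσ0, Y_eq C hx h0]
    exact hG.hasFDerivAt
  have hGσ := hG'.comp_hasDerivAt (0:ℝ) hPσ
  -- the norm along the curve
  have hN : HasFDerivAt (fun z : E n => ‖z‖) (fderiv ℝ (fun z : E n => ‖z‖) z0)
      ((C.U (z0 + (0:ℝ) • w) / ‖z0 + (0:ℝ) • w‖) • (z0 + (0:ℝ) • w)) := by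
    rw [hσ0]
    exact ((Sm.norm z0 hz0).differentiableAt (by simp)).hasFDerivAt
  have hNσ := (hN.comp_hasDerivAt (0:ℝ) hσ).const_mul c
  have hfN : ∀ v : E n, fderiv ℝ (fun z : E n => ‖z‖) z0 v = ∑ i, x i * v i := by
    intro v
    rw [Vale.Agent.P366.fderiv_eq_sum_pd]
    refine Finset.sum_congr rfl fun i _ => ?_
    rw [pd_norm' hz0, hn0]
    have : z0 i = u * x i := by simp [hz0d]
    rw [this]
    field_simp
  have hzero : (G ∘ (Psi C.H ∘ fun t : ℝ => (C.U (z0 + t • w) / ‖z0 + t • w‖) • (z0 + t • w)))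
      =ᶠ[𝓝 0] fun t => c * ((fun z : E n => ‖z‖) ∘ fun t : ℝ =>
        (C.U (z0 + t • w) / ‖z0 + t • w‖) • (z0 + t • w)) t := by
    have hc : ContinuousAt (fun t : ℝ => z0 + t • w) 0 := hz.continuousAt
    have hne : ∀ᶠ t in 𝓝 (0:ℝ), z0 + t • w ≠ 0 := by
      refine hc.eventually_ne ?_
      simpa using hz0
    filter_upwards [hne] with t ht
    have hUp := C.pos _ ht
    have hnp : 0 < ‖z0 + t • w‖ := norm_pos_iff.mpr ht
    have hq : 0 < C.U (z0 + t • w) / ‖z0 + t • w‖ := div_pos hUp hnp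
    refine hG0 _ (smul_ne_zero hq.ne' ht) ?_
    rw [homU C _ ht _ hq, norm_smul, Real.norm_eq_abs, abs_of_pos hq]
    simp only [zpow_zero, one_mul]
    field_simp
  have h2 := hGσ.unique (hNσ.congr_of_eventuallyEq hzero)
  rw [hfN, map_add, map_add, hz0d, map_smul, map_smul, map_smul, map_smul,
    Psi_ray_deriv C hx h0] at h2
  simp only [smul_eq_mul] at h2
  have h3 : ∑ i, x i * (w + a' • u • x) i = ∑ i, x i * w i + a' * u := by
    have e : ∀ i, x i * (w + a' • u • x) i = x i * w i + a' * u * (x i * x i) := fun i => by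
      simp; ring
    simp only [e, Finset.sum_add_distrib, ← Finset.mul_sum, sum_xx hx]
    ring
  rw [h3] at h2
  linarith only [h2]

section Bdr

variable (dom : ∀ y, 0 ≤ D.F y ↔ ∃ x, x ≠ 0 ∧ C.U x ≤ ‖x‖ ∧ Psi C.H x = y)
  (bdF : ∀ x, x ≠ 0 → ‖x‖ = C.U x → D.F (Psi C.H x) = 0)
  (bdf : ∀ x, x ≠ 0 → ‖x‖ = C.U x → f (Psi C.H x) = - C.U x)

include bdF bdf in
/-- On the boundary the differential of the defining function is proportional to `df + x`. -/
lemma bdr_grad (hfd : DifferentiableAt ℝ f (Y C.H x (C.U x))) (hx : ‖x‖ = 1) (i : Fin n) :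
    (1 + ∑ j, x j * pd j f (Y C.H x (C.U x))) * pd i D.F (Y C.H x (C.U x)) =
      (∑ j, x j * pd j D.F (Y C.H x (C.U x))) * (pd i f (Y C.H x (C.U x)) + x i) := by
  set y0 := Y C.H x (C.U x) with hy0
  have h0 := posU' C hx
  have hFd : DifferentiableAt ℝ D.F y0 := (D.dom.1.differentiable (by simp)) y0
  have hFz : ∀ z, z ≠ 0 → ‖z‖ = C.U z → D.F (Psi C.H z) = 0 * ‖z‖ := fun z hz hz1 => by
    rw [bdF z hz hz1, zero_mul]
  have hfz : ∀ z, z ≠ 0 → ‖z‖ = C.U z → f (Psi C.H z) = -1 * ‖z‖ := fun z hz hz1 => by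
    rw [bdf z hz hz1, hz1]; ring
  have hsurj : Function.Surjective (fderiv ℝ (Psi C.H) (C.U x • x)) := by
    have hinj : Function.Injective ((fderiv ℝ (Psi C.H) (C.U x • x) : E n →L[ℝ] E n) : E n →ₗ[ℝ] E n) := by
      rw [← LinearMap.ker_eq_bot, LinearMap.ker_eq_bot']
      intro v hv
      exact fderiv_Psi_inj C hx le_rfl hv
    exact LinearMap.injective_iff_surjective.mp hinj
  obtain ⟨w, hw⟩ := hsurj (EuclideanSpace.single i 1)
  obtain ⟨κ, hκ⟩ := bdr_curve2 C hx w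
  have e1 := hκ _ 0 hFd hFz
  have e2 := hκ _ (-1) hfd hfz
  have hxw : ∑ j, x j * w j = x i := by
    have h1 := fderiv_Psi_symm C hx h0 x w
    rw [hw, Psi_ray_deriv C hx h0] at h1
    have h2 : ∑ j, x j * (EuclideanSpace.single i (1 : ℝ) : E n) j = x i := by simp
    rw [h2] at h1
    rw [h1]
    exact Finset.sum_congr rfl fun j _ => mul_comm _ _
  rw [hw] at e1 e2
  rw [hxw] at e1 e2
  rw [← hy0] at e1 e2
  have e3 : ∀ G : E n → ℝ, fderiv ℝ G y0 (EuclideanSpace.single i 1) = pd i G y0 := fun _ => rfl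
  have e5 : ∀ G : E n → ℝ, fderiv ℝ G y0 x = ∑ j, x j * pd j G y0 := fun G =>
    Vale.Agent.P366.fderiv_eq_sum_pd G y0 x
  rw [e3, e5] at e1 e2
  have e4 : pd i D.F y0 = κ * ∑ j, x j * pd j D.F y0 := by linarith only [e1]
  have e6 : pd i f y0 + x i = κ * (1 + ∑ j, x j * pd j f y0) := by linarith only [e2]
  rw [e6, e4]
  ring

include dom bdF bdf in
lemma bdr_dF_pos (hfd : DifferentiableAt ℝ f (Y C.H x (C.U x)))
    (hne : 1 + ∑ j, x j * pd j f (Y C.H x (C.U x)) ≠ 0) (hx : ‖x‖ = 1) :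
    0 < ∑ j, x j * pd j D.F (Y C.H x (C.U x)) := by
  set y0 := Y C.H x (C.U x) with hy0
  have h0 := posU' C hx
  have hF0 : D.F y0 = 0 := bd_Y (β := fun _ => 0) bdF hx
  have hFd : DifferentiableAt ℝ D.F y0 := (D.dom.1.differentiable (by simp)) y0
  have hY : HasDerivAt (Y C.H x) x (C.U x) := by
    have h2 : Y C.H x = fun s => Y C.H x 0 + s • x := by
      funext s
      ext i
      simp [Y_apply]
    rw [h2]
    simpa using ((hasDerivAt_id (C.U x)).smul_const x).const_add (Y C.H x 0)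
  have hc := hFd.hasFDerivAt.comp_hasDerivAt (C.U x) hY
  rw [Vale.Agent.P366.fderiv_eq_sum_pd] at hc
  have hge : 0 ≤ ∑ j, x j * pd j D.F y0 := by
    have h1 := (hasDerivWithinAt_iff_tendsto_slope' (s := Ioi (C.U x)) (by simp)).mp
      (hc.hasDerivWithinAt (s := Ioi (C.U x)))
    refine ge_of_tendsto h1 ?_
    filter_upwards [self_mem_nhdsWithin] with r hr
    have hr : C.U x < r := hr
    rw [slope_def_field]
    refine div_nonneg ?_ (by linarith)
    simp only [Function.comp]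
    rw [← hy0, hF0, sub_zero]
    exact mem_Y dom hx hr.le
  refine lt_of_le_of_ne hge fun hz => ?_
  obtain ⟨i, hi⟩ := D.dom.2.1 y0 hF0
  apply hi
  rw [Vale.Agent.P366.Bridge.pd_eq hFd i]
  have h2 := bdr_grad bdF bdf hfd hx i
  rw [← hy0, ← hz, zero_mul] at h2
  exact (mul_eq_zero.mp h2).resolve_left hne

end Bdr

/-- the metric at a boundary point -/
theorem mat_bdr (hS : IsSliceL C l V f D) (hx : ‖x‖ = 1) :
    Stmt.mat D.g (Y C.H x (C.U x)) = KM (fun i => x i) (fun i => pd i f (Y C.H x (C.U x)))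
      (V (pt (- C.U x) (Y C.H x (C.U x))) * l 0 (pt (- C.U x) (Y C.H x (C.U x))) ^ 2) := by
  have h0 := posU' C hx
  have hx0 := ne_zero_of_one hx
  have hmem := mem_Y hS.dom hx (le_refl (C.U x))
  have hf : f (Y C.H x (C.U x)) = - C.U x := by
    have := bd_Y (β := fun z => - C.U z) hS.bdr hx
    rw [this, U_smul C hx0 h0]
  have hl : ∀ i : Fin n, l i.succ (pt (- C.U x) (Y C.H x (C.U x))) =
      l 0 (pt (- C.U x) (Y C.H x (C.U x))) * x i := by
    intro i
    have h := hS.nor (C.U x • x) (smul_ne_zero h0.ne' hx0)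
      (by rw [norm_smul_unit hx h0.le, U_smul C hx0 h0]) i
    rw [U_smul C hx0 h0, Y_eq C hx h0, norm_smul_unit hx h0.le] at h
    rw [h]
    have : (C.U x • x) i / C.U x = x i := by
      have : (C.U x • x) i = C.U x * x i := by simp
      rw [this]; field_simp
    rw [this]
  have hfd : DifferentiableAt ℝ f (Y C.H x (C.U x)) :=
    (hS.smf _ hmem).differentiableAt (by simp)
  ext i j
  rw [KM, Matrix.of_apply]
  show D.g (Y C.H x (C.U x)) i j = _
  rw [hS.met _ hmem i j, indG_ksL, hf, hl, hl, Vale.Agent.P366.Bridge.pd_eq hfd,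
    Vale.Agent.P366.Bridge.pd_eq hfd]
  ring

/-- the determinant at a boundary point -/
theorem det_bdr (hS : IsSliceL C l V f D) (hx : ‖x‖ = 1) :
    0 < 1 - ∑ i, pd i f (Y C.H x (C.U x)) ^ 2 +
      V (pt (- C.U x) (Y C.H x (C.U x))) * l 0 (pt (- C.U x) (Y C.H x (C.U x))) ^ 2 *
        (1 + ∑ i, x i * pd i f (Y C.H x (C.U x))) ^ 2 := by
  have hmem := mem_Y hS.dom hx (le_refl (C.U x))
  have h := (D.pos _ hmem).det_pos
  have hx2 : ∑ i, x i ^ 2 = 1 := by
    rw [← sum_xx hx]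
    exact Finset.sum_congr rfl fun i _ => by ring
  rw [mat_bdr hS hx, det_alg hx2] at h
  exact h

theorem tau_ne (hS : IsSliceL C l V f D) (hx : ‖x‖ = 1) :
    1 + ∑ i, x i * pd i f (Y C.H x (C.U x)) ≠ 0 := by
  intro h0
  have h := det_bdr hS hx
  rw [h0] at h
  have h1 : (∑ i, x i * pd i f (Y C.H x (C.U x))) ^ 2 ≤
      (∑ i, x i ^ 2) * ∑ i, pd i f (Y C.H x (C.U x)) ^ 2 :=
    Finset.sum_mul_sq_le_sq_mul_sq _ _ _
  have hx2 : ∑ i, x i ^ 2 = 1 := by
    rw [← sum_xx hx]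
    exact Finset.sum_congr rfl fun i _ => by ring
  rw [hx2] at h1
  have h2 : ∑ i, x i * pd i f (Y C.H x (C.U x)) = -1 := by linarith only [h0]
  rw [h2] at h1
  linarith only [h, h1]

/-- [V9] The area of the boundary. -/
theorem area_le [Fact (3 ≤ n)] (hS : IsSliceL C l V f D) :
    D.Amin ≤ ENNReal.ofReal (SI (fun x => dts C.H (C.U x) x)) := by
  have hdt : ∀ x : E n, ‖x‖ = 1 → 0 ≤ dW C.H (C.U x) x := fun x hx => (dts_pos C hx le_rfl).le
  have hS2 : SI (fun x => dts C.H (C.U x) x) = SI fun x => dW C.H (C.U x) x := rfl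
  rw [hS2]
  refine le_trans (sInf_le ⟨D.F, D.dom, fun x hx => hx, rfl⟩) ?_
  refine Vale.Agent.P366.H707.N.area_le D (smH C) (homH C) (smU C) (homU C)
    (fun x hx => posU' C hx) hdt ?_ ?_ ?_ ?_ ?_
  · intro a ha b hb hab
    rw [Psi_eq C ha.1, Psi_eq C hb.1] at hab
    exact C.inj ha hb hab
  · intro y hy
    obtain ⟨x, hx0, hx1, rfl⟩ := (hS.dom y).mp hy
    exact ⟨x, ⟨hx0, hx1⟩, Psi_eq C hx0⟩
  · intro x hx
    rw [Psi_eq C hx.1]
    exact (hS.dom _).2 ⟨x, hx.1, hx.2, rfl⟩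
  · intro z hz hF
    rw [Psi_eq C hz.1] at hF
    obtain ⟨x, hx, hzx⟩ := exists_unit hz.1
    have hn : 0 < ‖z‖ := norm_pos_iff.mpr hz.1
    have hUz : C.U z = C.U x := by rw [hzx, U_smul C (ne_zero_of_one hx) hn]
    by_contra hne
    have hlt : C.U x < ‖z‖ := by rw [← hUz]; exact lt_of_le_of_ne hz.2 hne
    have := F_pos hS.dom hx hlt
    rw [← Y_eq C hx hn, ← hzx] at this
    exact this.ne' hF
  · intro z hz0 hUz
    obtain ⟨x, hx, hzx⟩ := exists_unit hz0
    have hn : 0 < ‖z‖ := norm_pos_iff.mpr hz0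
    have hUx : C.U x = ‖z‖ := by rw [← hUz, hzx, U_smul C (ne_zero_of_one hx) hn]
    have hY : Vale.Agent.P366.H707.N.Psi C.H z = Y C.H x (C.U x) := by
      rw [Psi_eq C hz0, hUx, ← Y_eq C hx hn, ← hzx]
    rw [hY]
    have hzi : ∀ i, z i / ‖z‖ = x i := by
      intro i
      have : z i = ‖z‖ * x i := by
        conv_lhs => rw [hzx]
        simp
      rw [this]; field_simp
    simp only [hzi]
    set y0 := Y C.H x (C.U x) with hy0
    have hmem : 0 ≤ D.F y0 := mem_Y hS.dom hx le_rfl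
    have hFd : DifferentiableAt ℝ D.F y0 := (D.dom.1.differentiable (by simp)) y0
    have hfd : DifferentiableAt ℝ f y0 := (hS.smf _ hmem).differentiableAt (by simp)
    have hpe : ∀ i, Stmt.pd i D.F y0 = pd i D.F y0 := Vale.Agent.P366.Bridge.pd_eq hFd
    simp only [hpe]
    have hτ := tau_ne hS hx
    rw [← hy0] at hτ
    have hco : ∑ i, pd i D.F y0 * x i = ∑ i, x i * pd i D.F y0 :=
      Finset.sum_congr rfl fun i _ => mul_comm _ _
    rw [hco]
    refine ⟨bdr_dF_pos hS.dom hS.bdF hS.bdr hfd hτ hx, le_of_eq ?_⟩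
    unfold Vale.Agent.P366.H707.adjq
    simp only [hpe]
    rw [mat_bdr hS hx, ← hy0]
    set a := ∑ j, x j * pd j D.F y0 with ha
    set v := V (pt (- C.U x) y0) * l 0 (pt (- C.U x) y0) ^ 2 with hv
    have hgr : ∀ i, pd i D.F y0 = a / (1 + ∑ j, x j * pd j f y0) * (pd i f y0 + x i) := by
      intro i
      have h := bdr_grad hS.bdF hS.bdr hfd hx i
      rw [← hy0, ← ha] at h
      rw [div_mul_eq_mul_div, eq_div_iff hτ]
      linarith only [h]
    have hx2 : ∑ i, x i ^ 2 = 1 := by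
      rw [← sum_xx hx]
      exact Finset.sum_congr rfl fun i _ => by ring
    have hdet := det_bdr hS hx
    rw [← hy0, ← hv] at hdet
    have h3 := adj_alg (l := fun i => x i) (g := fun i => pd i f y0) (v := v) hx2 hdet.ne'
    set A := (KM (fun i => x i) (fun i => pd i f y0) v).adjugate with hA
    have h5 : ∑ i, ∑ j, A i j * pd i D.F y0 * pd j D.F y0 =
        (a / (1 + ∑ j, x j * pd j f y0)) ^ 2 *
        ∑ i, ∑ j, A i j * (pd i f y0 + x i) * (pd j f y0 + x j) := by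
      rw [Finset.mul_sum]
      refine Finset.sum_congr rfl fun i _ => ?_
      rw [Finset.mul_sum]
      refine Finset.sum_congr rfl fun j _ => ?_
      rw [hgr i, hgr j]; ring
    rw [h5, h3]
    field_simp

end Vale.Agent.P366.KSL
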