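import Vale.Agent.P366.H296.L.V9
import Vale.Agent.P366.H896.N.X5c

/-! Kerr-Schild spacetimes with a null geodesic covector field: the slice is transversal to the
null direction. -/

open MeasureTheory Metric Filter Topology Set
open scoped ContDiff ENNReal

noncomputable section
namespace Vale.Agent.P366.KSL

open Vale.Agent.P366 (pd E)
open Vale.Agent.P366.H353.N
open Vale.Agent.P366.Kerr (NullCone Psi pt sp indG indK sgn ksL ein IsKS IsGraph IsSliceL tng)
open Vale.Agent.P366.KSN (Y dts sg posU' Psi_map_nhds eventually_P Y_eq norm_smul_unit U_smul homU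
  smU smH homH Psi_ray_deriv fderiv_Psi_inj Psi_contDiffAt dts_pos exists_unit Psi_eq sum_xx Y_apply
  fderiv_Psi_symm pd_contDiffAt)

variable {n : ℕ} {C : NullCone n} {l : Fin (n + 1) → E (n + 1) → ℝ} {V : E (n + 1) → ℝ}
  {f f₁ : E n → ℝ} {D : Stmt.Exterior n} {p : E (n + 1)} {x y z : E n} {s : ℝ}

/-- the null condition at the point -/
lemma null_at (hK : IsKS l V p) : ∑ i : Fin n, l i.succ p ^ 2 = l 0 p ^ 2 := by
  have h := hK.null.self_of_nhds
  rw [Fin.sum_univ_succ] at h
  have e : ∀ i : Fin n, sgn i.succ * l i.succ p ^ 2 = l i.succ p ^ 2 := fun i => by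
    unfold sgn; simp
  simp only [e] at h
  have e0 : (sgn (0 : Fin (n + 1)) : ℝ) = -1 := by unfold sgn; simp
  rw [e0] at h
  linarith only [h]

/-- the function `l(1, ∇f)` -/
def tau (l : Fin (n + 1) → E (n + 1) → ℝ) (f : E n → ℝ) (y : E n) : ℝ :=
  l 0 (pt (f y) y) + ∑ i : Fin n, l i.succ (pt (f y) y) * pd i f y

lemma tau_ne_zero (hS : IsSliceL C l V f D) (hy : 0 ≤ D.F y) : tau l f y ≠ 0 := by
  intro h0
  have hK := hS.ks y hy
  have hnull := null_at hK
  have hfd : DifferentiableAt ℝ f y := (hS.smf y hy).differentiableAt (by simp)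
  set p := pt (f y) y with hp
  have hpos := hK.fut
  set u : Fin n → ℝ := fun i => l i.succ p with hu
  have hu0 : u ≠ 0 := by
    intro hz
    have : ∑ i : Fin n, l i.succ p ^ 2 = 0 := Finset.sum_eq_zero fun i _ => by
      have : l i.succ p = 0 := congrFun hz i
      rw [this]; ring
    rw [this] at hnull
    have : 0 < l 0 p ^ 2 := by positivity
    linarith only [this, hnull]
  have hP := (D.pos y hy).dotProduct_mulVec_pos hu0
  have hg : ∀ i j, Stmt.mat D.g y i j = kd i j - pd i f y * pd j f y +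
      V p * (l 0 p * pd i f y + u i) * (l 0 p * pd j f y + u j) := by
    intro i j
    show D.g y i j = _
    rw [hS.met y hy i j, indG_ksL, Vale.Agent.P366.Bridge.pd_eq hfd,
      Vale.Agent.P366.Bridge.pd_eq hfd]
  have hL : ∑ i, u i * pd i f y = - l 0 p := by
    have : l 0 p + ∑ i, u i * pd i f y = 0 := h0
    linarith only [this]
  have e : star u ⬝ᵥ (Stmt.mat D.g y).mulVec u = 0 := by
    have e1 : star u ⬝ᵥ (Stmt.mat D.g y).mulVec u =
        ∑ i, ∑ j, u i * (Stmt.mat D.g y i j * u j) := by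
      simp only [dotProduct, Matrix.mulVec, star_trivial, Finset.mul_sum]
    rw [e1]
    have e2 : ∀ i j, u i * (Stmt.mat D.g y i j * u j) = u i * (kd i j * u j) -
        (u i * pd i f y) * (u j * pd j f y) +
        V p * ((l 0 p * (u i * pd i f y) + u i ^ 2) * (l 0 p * (u j * pd j f y) + u j ^ 2)) := by
      intro i j
      rw [hg]
      ring
    simp only [e2, Finset.sum_add_distrib, Finset.sum_sub_distrib, ← Finset.mul_sum,
      ← Finset.sum_mul, hL]
    have e3 : ∑ i, u i * ∑ j, kd i j * u j = l 0 p ^ 2 := by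
      rw [← hnull]
      refine Finset.sum_congr rfl fun i _ => ?_
      have : ∑ j, kd i j * u j = u i := by simp [kd]
      rw [this, sq]
    have e4 : ∑ i, u i ^ 2 = l 0 p ^ 2 := hnull
    rw [e3, e4]
    ring
  rw [e] at hP
  exact lt_irrefl _ hP

lemma pt_contAt {f : E n → ℝ} (hf : ContinuousAt f y) : ContinuousAt (fun z => pt (f z) z) y := by
  have h2 : ContinuousAt (fun z : E n =>
      (WithLp.toLp 2 (Fin.cons (f z) fun i => z i) : E (n + 1))) y := by
    refine (PiLp.continuous_toLp 2 _).continuousAt.comp ?_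
    rw [continuousAt_pi]
    intro i
    refine Fin.cases ?_ (fun j => ?_) i
    · exact hf
    · exact (EuclideanSpace.proj (𝕜 := ℝ) j).continuous.continuousAt
  exact h2

lemma tau_cont (hG : IsGraph C l V f D) (hy : 0 ≤ D.F y) : ContinuousAt (tau l f) y := by
  have hf := hG.smf y hy
  have hK := hG.ks y hy
  have hp := pt_contAt hf.continuousAt
  have hl : ∀ a, ContinuousAt (fun z => l a (pt (f z) z)) y := fun a =>
    ContinuousAt.comp (g := l a) (f := fun z => pt (f z) z) (hK.sml a).continuousAt hp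
  exact (hl 0).add (tendsto_finsetSum _ fun i _ => (hl i.succ).mul
    (pd_contDiffAt hf i).continuousAt)

/-- the gradient of `f` is small far out -/
lemma grad_small [Fact (3 ≤ n)] (hS : IsSliceL C l V f D) :
    ∃ R : ℝ, ∀ y : E n, R < ‖y‖ → 0 < D.F y ∧ ∑ i, pd i f y ^ 2 < 1 := by
  obtain ⟨q, hq, hA⟩ := hS.asy
  obtain ⟨R0, hR0⟩ := D.dom.2.2.2
  have h3 : (3 : ℝ) ≤ n := by exact_mod_cast Fact.out (p := 3 ≤ n)
  have hq0 : 0 < q := by linarith only [hq, h3]
  have hn0 : 0 < (n : ℝ) := by linarith only [h3]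
  have h1 : ∀ i : Fin n, ∃ R : ℝ, ∀ y, R < Stmt.len y → Stmt.pd i f y ^ 2 ≤ 1 / (2 * n) := by
    intro i
    obtain ⟨K, R, hK⟩ := (hA i i).1
    have ht : Tendsto (fun r : ℝ => K * r ^ (-q)) atTop (𝓝 (K * 0)) :=
      (tendsto_rpow_neg_atTop hq0).const_mul K
    rw [mul_zero] at ht
    obtain ⟨R', hR'⟩ := (ht.eventually (gt_mem_nhds
      (show (0 : ℝ) < 1 / (2 * n) by positivity))).exists_forall_of_atTop
    refine ⟨max R R', fun y hy => ?_⟩
    have a1 := (hK y ((le_max_left _ _).trans_lt hy)).trans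
      (hR' _ ((le_max_right _ _).trans hy.le)).le
    have a2 : (1 : ℝ) / (2 * n) ≤ 1 := by
      rw [div_le_one (by positivity)]
      linarith only [h3]
    have a3 : |Stmt.pd i f y| ≤ 1 := a1.trans a2
    have a4 : Stmt.pd i f y ^ 2 = |Stmt.pd i f y| * |Stmt.pd i f y| := by rw [← sq, sq_abs]
    rw [a4]
    calc |Stmt.pd i f y| * |Stmt.pd i f y| ≤ 1 / (2 * n) * 1 :=
          mul_le_mul a1 a3 (abs_nonneg _) (by positivity)
      _ = _ := mul_one _
  choose Rf hRf using h1
  refine ⟨|R0| + ∑ i, |Rf i|, fun y hy => ?_⟩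
  have hs : 0 ≤ ∑ i, |Rf i| := Finset.sum_nonneg fun i _ => abs_nonneg _
  have hF : 0 < D.F y := hR0 y (by
    show R0 < ‖y‖
    have := le_abs_self R0
    linarith only [this, hy, hs])
  refine ⟨hF, ?_⟩
  have hfd : DifferentiableAt ℝ f y := (hS.smf y hF.le).differentiableAt (by simp)
  have h2 : ∀ i, pd i f y ^ 2 ≤ 1 / (2 * n) := fun i => by
    rw [← Vale.Agent.P366.Bridge.pd_eq hfd]
    refine hRf i y ?_
    show Rf i < ‖y‖
    have a1 : |Rf i| ≤ ∑ i, |Rf i| :=
      Finset.single_le_sum (f := fun i => |Rf i|) (fun j _ => abs_nonneg _) (Finset.mem_univ i)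
    have a2 := le_abs_self (Rf i)
    have a3 := abs_nonneg R0
    linarith only [a1, a2, a3, hy]
  calc ∑ i, pd i f y ^ 2 ≤ ∑ _i : Fin n, (1 : ℝ) / (2 * n) := Finset.sum_le_sum fun i _ => h2 i
    _ = 1 / 2 := by
      rw [Finset.sum_const, Finset.card_univ, Fintype.card_fin, nsmul_eq_mul]
      field_simp
    _ < 1 := by norm_num

/-- `l` is positive on the vector `(1, ∇f)` along the slice. -/
theorem tau_pos [Fact (3 ≤ n)] (hS : IsSliceL C l V f D) (y : E n) (hy : 0 ≤ D.F y) :
    0 < l 0 (pt (f y) y) + ∑ i : Fin n, l i.succ (pt (f y) y) * pd i f y := by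
  obtain ⟨R, hR⟩ := grad_small hS
  have h3 := Fact.out (p := 3 ≤ n)
  set z : E n := (|R| + 1) • EuclideanSpace.single (⟨0, by omega⟩ : Fin n) (1 : ℝ) with hz
  have hzn : R < ‖z‖ := by
    rw [hz, norm_smul, EuclideanSpace.norm_single, Real.norm_eq_abs, norm_one, mul_one,
      abs_of_pos (by positivity)]
    have := le_abs_self R
    linarith only [this]
  obtain ⟨hzF, hzg⟩ := hR z hzn
  have hK := hS.ks z hzF.le
  have hnull := null_at hK
  have hpos := hK.fut
  have htz : 0 < tau l f z := by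
    have h1 : (∑ i : Fin n, l i.succ (pt (f z) z) * pd i f z) ^ 2 ≤
        (∑ i : Fin n, l i.succ (pt (f z) z) ^ 2) * ∑ i, pd i f z ^ 2 :=
      Finset.sum_mul_sq_le_sq_mul_sq _ _ _
    rw [hnull] at h1
    have h2 : (∑ i : Fin n, l i.succ (pt (f z) z) * pd i f z) ^ 2 < l 0 (pt (f z) z) ^ 2 := by
      have hl2 : 0 < l 0 (pt (f z) z) ^ 2 := by positivity
      have := mul_lt_mul_of_pos_left hzg hl2
      linarith only [this, h1]
    have h4 := abs_lt_of_sq_lt_sq h2 hpos.le
    have h5 := (abs_lt.mp h4).1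
    unfold tau
    linarith only [h5]
  by_contra hneg
  have hle : tau l f y ≤ 0 := not_lt.mp hneg
  have hcon : IsPreconnected {x : E n | 0 ≤ D.F x} := D.dom.2.2.1.isPreconnected
  have hc : ContinuousOn (tau l f) {x : E n | 0 ≤ D.F x} := fun x hx =>
    (tau_cont hS.toIsGraph hx).continuousWithinAt
  have hiv := hcon.intermediate_value (a := y) (b := z) hy hzF.le hc
  obtain ⟨x, hx, hx0⟩ := hiv ⟨hle, htz.le⟩
  exact tau_ne_zero hS hx hx0

/-- the version at a boundary point -/
theorem tau_pos_bdr [Fact (3 ≤ n)] (hS : IsSliceL C l V f D) (hx : ‖x‖ = 1) :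
    0 < 1 + ∑ i, x i * pd i f (Y C.H x (C.U x)) := by
  have h0 := posU' C hx
  have hx0 := ne_zero_of_one hx
  have hmem := mem_Y hS.dom hx (le_refl (C.U x))
  have hf : f (Y C.H x (C.U x)) = - C.U x := by
    have := bd_Y (β := fun z => - C.U z) hS.bdr hx
    rw [this, U_smul C hx0 h0]
  have hl : ∀ i : Fin n, l i.succ (pt (- C.U x) (Y C.H x (C.U x))) =
      l 0 (pt (- C.U x) (Y C.H x (C.U x))) * x i := by
    intro i
    have h := hS.nor (C.U x • x) (smul_ne_zero h0.ne' hx0)
      (by rw [norm_smul_unit hx h0.le, U_smul C hx0 h0]) i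
    rw [U_smul C hx0 h0, Y_eq C hx h0, norm_smul_unit hx h0.le] at h
    rw [h]
    have : (C.U x • x) i / C.U x = x i := by
      have : (C.U x • x) i = C.U x * x i := by simp
      rw [this]; field_simp
    rw [this]
  have h := tau_pos hS _ hmem
  have hK := (hS.ks _ hmem).fut
  rw [hf] at h hK
  simp only [hl] at h
  have e : l 0 (pt (- C.U x) (Y C.H x (C.U x))) + ∑ i : Fin n,
      l 0 (pt (- C.U x) (Y C.H x (C.U x))) * x i * pd i f (Y C.H x (C.U x)) =
      l 0 (pt (- C.U x) (Y C.H x (C.U x))) *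
        (1 + ∑ i, x i * pd i f (Y C.H x (C.U x))) := by
    rw [mul_add, mul_one, Finset.mul_sum]
    congr 1
    exact Finset.sum_congr rfl fun i _ => by ring
  rw [e] at h
  exact (pos_iff_pos_of_mul_pos h).1 hK

end Vale.Agent.P366.KSL
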